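import Vale.Agent.P146.H501.Interp

set_option linter.all false

/-!
# P146: two independent copies, planted: the finite part

For one planted copy let `N ψ = E[e^{a₀·g} (∑ₛ e^{aₛ·g + ψ s})^{-p}]`, and suppose
`N ψ ≤ exp(-p ∑ P s ψ s) N 0` for every `ψ` (planted log-concavity).  Then the two-copy integral
with the pair energy `f` is at most `exp(p(δ+1)) K^p (M+1)^K (N 0)²`, where `0 ≤ f ≤ M` and `f ≤ δ`
inside the `K` cells.
-/

open MeasureTheory ProbabilityTheory

namespace Vale.Agent.P146.H291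

open Vale.Agent.P146 Vale.Agent.P146.H501

variable {ι X J : Type*} [Fintype ι] [Fintype X] [Nonempty X] [Fintype J]

/-- the planted moment with the weights `exp ψ` -/
noncomputable def Np (p : ℝ) (a : X → ι → ℝ) (s0 : X) (ψ : X → ℝ) : ℝ :=
  ∫ g, Real.exp (∑ i, a s0 i * g i) * zp (-p) a ψ g ∂(gpi ι)

/-- The planted log-concavity at `0`, as a bound with the weights `P`. -/
def PlC (p : ℝ) (a : X → ι → ℝ) (s0 : X) (P : X → ℝ) : Prop :=
  (∀ s, 0 ≤ P s) ∧ ∑ s, P s = 1 ∧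
    ∀ ψ : X → ℝ, Np p a s0 ψ ≤ Real.exp (-p * ∑ s, P s * ψ s) * Np p a s0 0

lemma exp_lin_dom (a : ι → ℝ) : Dom (fun g : ι → ℝ => Real.exp (∑ i, a i * g i)) := by
  refine ⟨by fun_prop, 1, ∑ i, |a i|, zero_le_one, Finset.sum_nonneg fun i _ => abs_nonneg _,
    fun g => ?_⟩
  rw [abs_of_pos (Real.exp_pos _), one_mul]
  refine Real.exp_le_exp.2 ?_
  calc ∑ i, a i * g i ≤ ∑ i, (∑ j, |a j|) * |g i| := by
        refine Finset.sum_le_sum fun i _ => ?_
        have h1 : a i * g i ≤ |a i| * |g i| := by rw [← abs_mul]; exact le_abs_self _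
        have h2 : |a i| ≤ ∑ j, |a j| := Finset.single_le_sum (f := fun j => |a j|)
          (fun j _ => abs_nonneg _) (Finset.mem_univ i)
        exact h1.trans (mul_le_mul_of_nonneg_right h2 (abs_nonneg _))
    _ = (∑ j, |a j|) * ∑ i, |g i| := by rw [Finset.mul_sum]

lemma Np_dom (p : ℝ) (a : X → ι → ℝ) (s0 : X) (ψ : X → ℝ) :
    Dom (fun g => Real.exp (∑ i, a s0 i * g i) * zp (-p) a ψ g) :=
  (exp_lin_dom (a s0)).mul (zp_dom (-p) a ψ)

lemma Np_nonneg (p : ℝ) (a : X → ι → ℝ) (s0 : X) (ψ : X → ℝ) : 0 ≤ Np p a s0 ψ :=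
  integral_nonneg fun g => (mul_pos (Real.exp_pos _) (zp_pos _ _ _ _)).le

section pt

variable [DecidableEq J] (a : X → ι → ℝ) (g : ι → ℝ) (c : X → J)

/-- the weight of a cell -/
noncomputable def Wc (j : J) : ℝ := ∑ t, if c t = j then wt a 0 g t else 0

lemma Wc_nonneg (j : J) : 0 ≤ Wc a g c j :=
  Finset.sum_nonneg fun t _ => by
    split_ifs
    · exact (wt_pos a 0 g t).le
    · exact le_rfl

lemma Wc_le (j : J) : Wc a g c j ≤ zz a 0 g := by
  unfold Wc zz
  refine Finset.sum_le_sum fun t _ => ?_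
  split_ifs
  · exact le_rfl
  · exact (wt_pos a 0 g t).le

lemma Wc_pos (s : X) : 0 < Wc a g c (c s) := by
  unfold Wc
  refine Finset.sum_pos' (fun t _ => ?_) ⟨s, Finset.mem_univ s, ?_⟩
  · split_ifs
    · exact (wt_pos a 0 g t).le
    · exact le_rfl
  · rw [if_pos rfl]
    exact wt_pos a 0 g s

/-- the level of a cell -/
noncomputable def lv (M : ℝ) (j : J) : ℕ := ⌊min M (Real.log (zz a 0 g / Wc a g c j))⌋₊

lemma lv_le (M : ℝ) (j : J) : lv a g c M j ≤ ⌊M⌋₊ := Nat.floor_mono (min_le_left _ _)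

/-- the weights `exp φ` cost at most the number of cells -/
lemma zz_lv {M : ℝ} (hM : 0 ≤ M) :
    zz a (fun t => (lv a g c M (c t) : ℝ)) g ≤ Fintype.card J * zz a 0 g := by
  have h1 : zz a (fun t => (lv a g c M (c t) : ℝ)) g =
      ∑ j, Real.exp (lv a g c M j) * Wc a g c j := by
    unfold zz Wc
    simp_rw [Finset.mul_sum]
    rw [Finset.sum_comm]
    refine Finset.sum_congr rfl fun t _ => ?_
    rw [Finset.sum_eq_single (c t)]
    · rw [if_pos rfl]
      unfold wt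
      rw [← Real.exp_add]
      congr 1
      simp only [Pi.zero_apply]
      ring
    · intro j _ hj
      rw [if_neg (fun h => hj h.symm), mul_zero]
    · intro h
      exact absurd (Finset.mem_univ _) h
  rw [h1]
  have h2 : ∀ j ∈ (Finset.univ : Finset J), Real.exp (lv a g c M j) * Wc a g c j ≤ zz a 0 g := by
    intro j _
    rcases (Wc_nonneg a g c j).eq_or_lt with h | h
    · rw [← h, mul_zero]
      exact (zz_pos a 0 g).le
    · have h3 : 1 ≤ zz a 0 g / Wc a g c j := by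
        rw [le_div_iff₀ h, one_mul]
        exact Wc_le a g c j
      have h4 : 0 ≤ Real.log (zz a 0 g / Wc a g c j) := Real.log_nonneg h3
      have h5 : (lv a g c M j : ℝ) ≤ Real.log (zz a 0 g / Wc a g c j) :=
        (Nat.floor_le (le_min hM h4)).trans (min_le_right _ _)
      have h6 := Real.exp_le_exp.2 h5
      rw [Real.exp_log (by linarith)] at h6
      calc Real.exp (lv a g c M j) * Wc a g c j ≤ zz a 0 g / Wc a g c j * Wc a g c j :=
            mul_le_mul_of_nonneg_right h6 h.le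
        _ = zz a 0 g := div_mul_cancel₀ _ h.ne'
  refine (Finset.sum_le_sum h2).trans (le_of_eq ?_)
  rw [Finset.sum_const, nsmul_eq_mul]
  rfl

/-- the local free energy from below -/
lemma log_ge {f : X → X → ℝ} {M δ : ℝ} (hδ : 0 ≤ δ) (hM : ∀ s t, f s t ≤ M)
    (hc : ∀ s t, c s = c t → f s t ≤ δ) (s : X) :
    Real.log (zz a 0 g) - δ - 1 - lv a g c M (c s) ≤
      Real.log (zz a (fun t => -f s t) g) := by
  have hZ := zz_pos a 0 g
  have hW := Wc_pos a g c s
  have h1 : zz a 0 g * Real.exp (-M) ≤ zz a (fun t => -f s t) g := by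
    unfold zz
    rw [Finset.sum_mul]
    refine Finset.sum_le_sum fun t _ => ?_
    unfold wt
    rw [← Real.exp_add]
    refine Real.exp_le_exp.2 ?_
    simp only [Pi.zero_apply]
    linarith [hM s t]
  have h2 : Wc a g c (c s) * Real.exp (-δ) ≤ zz a (fun t => -f s t) g := by
    unfold zz Wc
    rw [Finset.sum_mul]
    refine Finset.sum_le_sum fun t _ => ?_
    split_ifs with h
    · unfold wt
      rw [← Real.exp_add]
      refine Real.exp_le_exp.2 ?_
      simp only [Pi.zero_apply]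
      linarith [hc s t h.symm]
    · rw [zero_mul]
      exact (wt_pos _ _ _ _).le
  have h3 : Real.log (zz a 0 g) - M ≤ Real.log (zz a (fun t => -f s t) g) := by
    have := Real.log_le_log (mul_pos hZ (Real.exp_pos _)) h1
    rwa [Real.log_mul hZ.ne' (Real.exp_pos _).ne', Real.log_exp, ← sub_eq_add_neg] at this
  have h4 : Real.log (Wc a g c (c s)) - δ ≤ Real.log (zz a (fun t => -f s t) g) := by
    have := Real.log_le_log (mul_pos hW (Real.exp_pos _)) h2
    rwa [Real.log_mul hW.ne' (Real.exp_pos _).ne', Real.log_exp, ← sub_eq_add_neg] at this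
  have h5 : min M (Real.log (zz a 0 g / Wc a g c (c s))) < lv a g c M (c s) + 1 :=
    Nat.lt_floor_add_one _
  have h6 : Real.log (zz a 0 g / Wc a g c (c s)) =
      Real.log (zz a 0 g) - Real.log (Wc a g c (c s)) := Real.log_div hZ.ne' hW.ne'
  rcases min_lt_iff.1 h5 with h | h
  · linarith
  · rw [h6] at h
    linarith

/-- the pointwise bound by the finite union over the level functions -/
lemma point_le {p : ℝ} (hp : 0 ≤ p) {P : X → ℝ} (hP0 : ∀ s, 0 ≤ P s) (hP1 : ∑ s, P s = 1)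
    {f : X → X → ℝ} {M δ : ℝ} (hδ : 0 ≤ δ) (hM0 : 0 ≤ M) (hM : ∀ s t, f s t ≤ M)
    (hc : ∀ s t, c s = c t → f s t ≤ δ) :
    Real.exp (-p * ∑ s, P s * Real.log (zz a (fun t => -f s t) g)) ≤
      ∑ φ : J → Fin (⌊M⌋₊ + 1), Real.exp (p * (δ + 1)) * (Fintype.card J : ℝ) ^ p *
        Real.exp (p * ∑ s, P s * (φ (c s) : ℝ)) *
          zp (-p) a (fun t => ((φ (c t) : ℕ) : ℝ)) g := by
  have hZ := zz_pos a 0 g
  obtain ⟨φ, hφ⟩ : ∃ φ : J → Fin (⌊M⌋₊ + 1), ∀ j, (φ j : ℕ) = lv a g c M j :=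
    ⟨fun j => ⟨lv a g c M j, Nat.lt_succ_of_le (lv_le a g c M j)⟩, fun j => rfl⟩
  refine le_trans ?_ (Finset.single_le_sum (f := fun φ : J → Fin (⌊M⌋₊ + 1) =>
    Real.exp (p * (δ + 1)) * (Fintype.card J : ℝ) ^ p *
      Real.exp (p * ∑ s, P s * (φ (c s) : ℝ)) *
        zp (-p) a (fun t => ((φ (c t) : ℕ) : ℝ)) g)
    (fun φ _ => mul_nonneg (mul_nonneg (mul_nonneg (Real.exp_pos _).le
      (Real.rpow_nonneg (Nat.cast_nonneg _) _)) (Real.exp_pos _).le) (zp_pos _ _ _ _).le)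
    (Finset.mem_univ φ))
  have hK : 0 < (Fintype.card J : ℝ) := by
    obtain ⟨s⟩ := ‹Nonempty X›
    have : 0 < Fintype.card J := Fintype.card_pos_iff.2 ⟨c s⟩
    exact_mod_cast this
  have e1 : (fun t => ((φ (c t) : ℕ) : ℝ)) = fun t => (lv a g c M (c t) : ℝ) := by
    funext t
    rw [hφ]
  have h1 : Real.log (zz a (fun t => ((φ (c t) : ℕ) : ℝ)) g) ≤
      Real.log (Fintype.card J) + Real.log (zz a 0 g) := by
    rw [e1, ← Real.log_mul hK.ne' hZ.ne']
    exact Real.log_le_log (zz_pos _ _ _) (zz_lv a g c hM0)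
  have h2 : ∑ s, P s * (Real.log (zz a 0 g) - δ - 1 - (φ (c s) : ℝ)) ≤
      ∑ s, P s * Real.log (zz a (fun t => -f s t) g) := by
    refine Finset.sum_le_sum fun s _ => mul_le_mul_of_nonneg_left ?_ (hP0 s)
    rw [hφ]
    exact log_ge a g c hδ hM hc s
  have h3 : ∑ s, P s * (Real.log (zz a 0 g) - δ - 1 - (φ (c s) : ℝ)) =
      Real.log (zz a 0 g) - δ - 1 - ∑ s, P s * (φ (c s) : ℝ) := by
    simp_rw [mul_sub]
    rw [Finset.sum_sub_distrib, Finset.sum_sub_distrib, Finset.sum_sub_distrib,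
      ← Finset.sum_mul, ← Finset.sum_mul, ← Finset.sum_mul, hP1]
    ring
  rw [h3] at h2
  unfold zp
  rw [Real.rpow_def_of_pos hK, ← Real.exp_add, ← Real.exp_add, ← Real.exp_add]
  refine Real.exp_le_exp.2 ?_
  have h4 := mul_le_mul_of_nonneg_left h2 hp
  have h5 := mul_le_mul_of_nonneg_left h1 hp
  linarith

end pt

/-- **Two independent planted copies.** -/
theorem two_le {p : ℝ} (hp : 0 ≤ p) {a : X → ι → ℝ} {s0 : X} {P : X → ℝ} (hP : PlC p a s0 P)
    (c : X → J) {f : X → X → ℝ} {M δ : ℝ} (hδ : 0 ≤ δ) (hM0 : 0 ≤ M) (hM : ∀ s t, f s t ≤ M)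
    (hc : ∀ s t, c s = c t → f s t ≤ δ) :
    ∫ g2, ∫ g1, Real.exp (∑ i, a s0 i * g1 i) * Real.exp (∑ i, a s0 i * g2 i) *
      Real.exp (-p * Real.log (∑ s, ∑ t,
        Real.exp (∑ i, a s i * g1 i + ∑ i, a t i * g2 i - f s t))) ∂(gpi ι) ∂(gpi ι) ≤
      Real.exp (p * (δ + 1)) * (Fintype.card J : ℝ) ^ p *
        ((⌊M⌋₊ : ℝ) + 1) ^ Fintype.card J * Np p a s0 0 ^ 2 := by
  classical
  obtain ⟨hP0, hP1, hPN⟩ := hP
  have hN0 := Np_nonneg p a s0 (0 : X → ℝ)
  -- the inner integral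
  have inner : ∀ g2, ∫ g1, Real.exp (∑ i, a s0 i * g1 i) * Real.exp (∑ i, a s0 i * g2 i) *
      Real.exp (-p * Real.log (∑ s, ∑ t,
        Real.exp (∑ i, a s i * g1 i + ∑ i, a t i * g2 i - f s t))) ∂(gpi ι) =
      Real.exp (∑ i, a s0 i * g2 i) *
        Np p a s0 (fun s => Real.log (zz a (fun t => -f s t) g2)) := by
    intro g2
    unfold Np
    rw [← integral_const_mul]
    refine integral_congr_ae (Filter.Eventually.of_forall fun g1 => ?_)
    simp only
    have e : ∑ s, ∑ t, Real.exp (∑ i, a s i * g1 i + ∑ i, a t i * g2 i - f s t) =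
        zz a (fun s => Real.log (zz a (fun t => -f s t) g2)) g1 := by
      unfold zz
      refine Finset.sum_congr rfl fun s _ => ?_
      unfold wt
      rw [Real.exp_add, Real.exp_log (Finset.sum_pos (fun t _ => Real.exp_pos _)
        Finset.univ_nonempty), Finset.mul_sum]
      refine Finset.sum_congr rfl fun t _ => ?_
      rw [← Real.exp_add]
      congr 1
      ring
    rw [e]
    unfold zp
    ring
  simp_rw [inner]
  -- the pointwise bound
  have hpt : ∀ g2, Real.exp (∑ i, a s0 i * g2 i) *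
      Np p a s0 (fun s => Real.log (zz a (fun t => -f s t) g2)) ≤
      ∑ φ : J → Fin (⌊M⌋₊ + 1), (Real.exp (p * (δ + 1)) * (Fintype.card J : ℝ) ^ p *
        Np p a s0 0 * Real.exp (p * ∑ s, P s * (φ (c s) : ℝ))) *
          (Real.exp (∑ i, a s0 i * g2 i) * zp (-p) a (fun t => ((φ (c t) : ℕ) : ℝ)) g2) := by
    intro g2
    have h1 := hPN fun s => Real.log (zz a (fun t => -f s t) g2)
    have h2 := point_le a g2 c hp hP0 hP1 hδ hM0 hM hc
    have h3 := mul_le_mul_of_nonneg_left (h1.trans (mul_le_mul_of_nonneg_right h2 hN0))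
      (Real.exp_pos (∑ i, a s0 i * g2 i)).le
    refine h3.trans (le_of_eq ?_)
    rw [Finset.sum_mul, Finset.mul_sum]
    refine Finset.sum_congr rfl fun φ _ => ?_
    ring
  have hdom : Dom (fun g2 : ι → ℝ => ∑ φ : J → Fin (⌊M⌋₊ + 1),
      (Real.exp (p * (δ + 1)) * (Fintype.card J : ℝ) ^ p *
        Np p a s0 0 * Real.exp (p * ∑ s, P s * (φ (c s) : ℝ))) *
          (Real.exp (∑ i, a s0 i * g2 i) * zp (-p) a (fun t => ((φ (c t) : ℕ) : ℝ)) g2)) :=
    Dom.sum _ fun φ _ => (Np_dom p a s0 _).const_mul _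
  have hmono := integral_mono_of_nonneg (μ := gpi ι)
    (Filter.Eventually.of_forall fun g2 => mul_nonneg (Real.exp_pos _).le
      (Np_nonneg p a s0 (fun s => Real.log (zz a (fun t => -f s t) g2))))
    hdom.integrable (Filter.Eventually.of_forall hpt)
  refine hmono.trans ?_
  rw [int_sum _ fun φ _ => (Np_dom p a s0 _).const_mul _]
  have hterm : ∀ φ ∈ (Finset.univ : Finset (J → Fin (⌊M⌋₊ + 1))),
      ∫ g2, (Real.exp (p * (δ + 1)) * (Fintype.card J : ℝ) ^ p *
        Np p a s0 0 * Real.exp (p * ∑ s, P s * (φ (c s) : ℝ))) *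
          (Real.exp (∑ i, a s0 i * g2 i) * zp (-p) a (fun t => ((φ (c t) : ℕ) : ℝ)) g2) ∂(gpi ι) ≤
      Real.exp (p * (δ + 1)) * (Fintype.card J : ℝ) ^ p * Np p a s0 0 ^ 2 := by
    intro φ _
    rw [integral_const_mul]
    have h1 := hPN fun t => ((φ (c t) : ℕ) : ℝ)
    have h2 : (∫ g, Real.exp (∑ i, a s0 i * g i) *
        zp (-p) a (fun t => ((φ (c t) : ℕ) : ℝ)) g ∂(gpi ι)) =
        Np p a s0 (fun t => ((φ (c t) : ℕ) : ℝ)) := rfl
    rw [h2]
    have h3 : 0 ≤ Real.exp (p * (δ + 1)) * (Fintype.card J : ℝ) ^ p *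
        Np p a s0 0 * Real.exp (p * ∑ s, P s * (φ (c s) : ℝ)) :=
      mul_nonneg (mul_nonneg (mul_nonneg (Real.exp_pos _).le
        (Real.rpow_nonneg (Nat.cast_nonneg _) _)) hN0) (Real.exp_pos _).le
    refine (mul_le_mul_of_nonneg_left h1 h3).trans (le_of_eq ?_)
    have h4 : Real.exp (p * ∑ s, P s * ((φ (c s) : ℕ) : ℝ)) *
        Real.exp (-p * ∑ s, P s * ((φ (c s) : ℕ) : ℝ)) = 1 := by
      rw [← Real.exp_add, show p * ∑ s, P s * ((φ (c s) : ℕ) : ℝ) +
        -p * ∑ s, P s * ((φ (c s) : ℕ) : ℝ) = 0 by ring, Real.exp_zero]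
    calc Real.exp (p * (δ + 1)) * (Fintype.card J : ℝ) ^ p * Np p a s0 0 *
          Real.exp (p * ∑ s, P s * ((φ (c s) : ℕ) : ℝ)) *
          (Real.exp (-p * ∑ s, P s * ((φ (c s) : ℕ) : ℝ)) * Np p a s0 0)
        = Real.exp (p * (δ + 1)) * (Fintype.card J : ℝ) ^ p * Np p a s0 0 ^ 2 *
          (Real.exp (p * ∑ s, P s * ((φ (c s) : ℕ) : ℝ)) *
            Real.exp (-p * ∑ s, P s * ((φ (c s) : ℕ) : ℝ))) := by ring
      _ = _ := by rw [h4, mul_one]
  refine (Finset.sum_le_sum hterm).trans (le_of_eq ?_)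
  rw [Finset.sum_const, nsmul_eq_mul, Finset.card_univ, Fintype.card_fun, Fintype.card_fin]
  push_cast
  ring

end Vale.Agent.P146.H291
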